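import Mathlib
import Vale.Agent.P302.Basic
import Vale.Agent.P302.Pack
import Vale.Agent.P302.Final
import Vale.Agent.P302.Cond

open Vale.P302

namespace Vale.Agent.Results.P302.Cond

/-- (1) `OPT(I) ≤ ⌈LP(I)⌉ + 1` for every instance with `OPT(I) ≤ 5` or `LP(I) ≤ 3`.
(2) For every integer `m ≥ 1` with `LP(I) ≤ m`: if
`#{i : 1/m < a_i ≤ 1/2} + 2 #{i : 1/m < a_i, 1/2 < a_i} ≤ 2 (m+1)` then `OPT(I) ≤ m + 1`. -/
theorem result :
    (∀ I : Instance, (OPT I ≤ 5 ∨ LP I ≤ 3) → (OPT I : ℤ) ≤ ⌈LP I⌉ + 1) ∧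
    (∀ (I : Instance) (m : ℕ), 1 ≤ m → LP I ≤ m →
      (Finset.univ.filter (fun i => 1 / (m:ℚ) < I.a i ∧ I.a i ≤ 1/2)).card
        + 2 * (Finset.univ.filter (fun i => 1 / (m:ℚ) < I.a i ∧ 1/2 < I.a i)).card
        ≤ 2 * (m + 1) →
      OPT I ≤ m + 1) :=
  ⟨fun I h => mirup_small I
      (h.elim id (fun h => (opt_le (pack_four I h)).trans (by norm_num))),
    fun I m hm hLP hc => cond I m hm hLP hc⟩

end Vale.Agent.Results.P302.Cond
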