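import Mathlib
import Vale.Agent.P302.Basic
import Vale.Agent.P302.Pack
import Vale.Agent.P302.Final
import Vale.Agent.P302.Cond
import Vale.Agent.P302.Harm

open Vale.P302

namespace Vale.Agent.Results.P302.Harm

/-- (1) `OPT(I) ≤ ⌈LP(I)⌉ + 1` for every instance with `OPT(I) ≤ 5` or `LP(I) ≤ 3`.
(2) For every integer `m ≥ 1` with `LP(I) ≤ m`: if `∑_{q=1}^{m-1} ⌈n_q / q⌉ ≤ m + 1`, where `n_q`
is the number of items with size in `(1/(q+1), 1/q]`, then `OPT(I) ≤ m + 1`. -/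
theorem result :
    (∀ I : Instance, (OPT I ≤ 5 ∨ LP I ≤ 3) → (OPT I : ℤ) ≤ ⌈LP I⌉ + 1) ∧
    (∀ (I : Instance) (m : ℕ), 1 ≤ m → LP I ≤ m →
      ∑ q ∈ Finset.Ico 1 m, ((cls I q).card + q - 1) / q ≤ m + 1 → OPT I ≤ m + 1) :=
  ⟨fun I h => mirup_small I
      (h.elim id (fun h => (opt_le (pack_four I h)).trans (by norm_num))),
    fun I m hm hLP hc => harm I m hm hLP hc⟩

end Vale.Agent.Results.P302.Harm
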