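import Mathlib
import Vale.Agent.P302.Basic
import Vale.Agent.P302.Pack
import Vale.Agent.P302.Final

open Vale.P302

namespace Vale.Agent.Results.P302.Small

/-- The modified integer round-up property `OPT(I) ≤ ⌈LP(I)⌉ + 1` holds for every bin packing
instance with `OPT(I) ≤ 5`, and for every instance with `LP(I) ≤ 3`. -/
theorem result :
    (∀ I : Instance, OPT I ≤ 5 → (OPT I : ℤ) ≤ ⌈LP I⌉ + 1) ∧
    (∀ I : Instance, LP I ≤ 3 → (OPT I : ℤ) ≤ ⌈LP I⌉ + 1) :=
  ⟨mirup_small, fun I h => mirup_small I ((opt_le (pack_four I h)).trans (by norm_num))⟩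

end Vale.Agent.Results.P302.Small
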